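import Vale.Agent.P369.Classical.Final

/-!
P369, Q1 with a vacuum second input, for every number of modes and every classical first input:
a mixture of coherent states with respect to any probability measure of finite mean photon number.
-/

open MeasureTheory Filter Finset Vale.Agent.P369 Vale.Agent.P369.Fock Vale.Agent.P369.Classical
open scoped Topology

theorem Vale.Agent.Results.P369.ClassicalVacuum.result :
    ∀ n : ℕ, 0 < n → ∀ η : ℝ, 0 ≤ η → η ≤ 1 →
      ∀ μ : Measure (Fin n → ℂ), IsProbabilityMeasure μ →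
        Integrable (fun x => ∑ i, ‖x i‖ ^ 2) μ →
        IsState (classOp μ) ∧ IsState (bsOutInf η (classOp μ)) ∧
        ∃ SA SC NA NC : ℝ,
          Tendsto (fun K => vN (compress K (classOp μ))) atTop (𝓝 SA) ∧
          Tendsto (fun K => vN (compress K (bsOutInf η (classOp μ)))) atTop (𝓝 SC) ∧
          0 ≤ NA ∧ Vale.Agent.P369.Ode.g NA = SA / n ∧
          0 ≤ NC ∧ Vale.Agent.P369.Ode.g NC = SC / n ∧ η * NA ≤ NC :=
  fun _ hn _ h0 h1 μ hμ hE => @classical_photon_number _ _ hn h0 h1 μ hμ hE
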